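import Vale.Agent.P353.BFSS

/-! # P353B91: the operator associated with a closed form of the type `⟨T x, T y⟩` -/

open Filter Topology

namespace Vale.Agent.P353B91

variable {E K : Type*} [NormedAddCommGroup E] [InnerProductSpace ℂ E] [CompleteSpace E]
  [NormedAddCommGroup K] [InnerProductSpace ℂ K] [CompleteSpace K]

/-- the graph of the operator associated with `Γ` -/
def GH (Γ : Submodule ℂ (E × K)) (x y : E) : Prop :=
  ∃ w, (x, w) ∈ Γ ∧ ∀ p ∈ Γ, inner ℂ p.2 w = inner ℂ p.1 y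

omit [CompleteSpace E] [CompleteSpace K] in
theorem gh_zero (Γ : Submodule ℂ (E × K)) (hd : ∀ y : E, (∀ p ∈ Γ, inner ℂ p.1 y = 0) → y = 0)
    {y : E} (h : GH Γ 0 y) : y = 0 := by
  obtain ⟨w, hw, h2⟩ := h
  have h3 := h2 _ hw
  simp only [inner_zero_left, inner_self_eq_zero] at h3
  refine hd y fun p hp => ?_
  rw [← h2 p hp, h3, inner_zero_right]

omit [CompleteSpace E] [CompleteSpace K] in
theorem ex_op (Γ : Submodule ℂ (E × K)) (hd : ∀ y : E, (∀ p ∈ Γ, inner ℂ p.1 y = 0) → y = 0) :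
    ∃ H : E →ₗ.[ℂ] E, ∀ x y, (x, y) ∈ H.graph ↔ GH Γ x y := by
  let g : Submodule ℂ (E × E) :=
    { carrier := {q | GH Γ q.1 q.2}
      zero_mem' := ⟨0, Γ.zero_mem, fun p _ => by simp⟩
      add_mem' := by
        rintro a b ⟨w, hw, h⟩ ⟨w', hw', h'⟩
        refine ⟨w + w', Γ.add_mem hw hw', fun p hp => ?_⟩
        rw [Prod.snd_add, inner_add_right, inner_add_right, h p hp, h' p hp]
      smul_mem' := by
        rintro c a ⟨w, hw, h⟩
        refine ⟨c • w, Γ.smul_mem c hw, fun p hp => ?_⟩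
        rw [Prod.smul_snd, inner_smul_right, inner_smul_right, h p hp] }
  refine ⟨g.toLinearPMap, fun x y => ?_⟩
  rw [Submodule.toLinearPMap_graph_eq g fun q hq h0 => gh_zero Γ hd (by
    have h1 : GH Γ q.1 q.2 := hq
    rwa [h0] at h1)]
  rfl

theorem gh_surj (Γ : Submodule ℂ (E × K)) (hc : IsClosed (Γ : Set (E × K))) (η : E) :
    ∃ x, GH Γ x (η - x) := by
  let e : WithLp 2 (E × K) ≃L[ℂ] E × K := WithLp.prodContinuousLinearEquiv 2 ℂ E K
  let Γ' : Submodule ℂ (WithLp 2 (E × K)) := Γ.comap (e : WithLp 2 (E × K) →L[ℂ] E × K).toLinearMap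
  have hc' : IsClosed (Γ' : Set (WithLp 2 (E × K))) := hc.preimage e.continuous
  have : CompleteSpace Γ' := hc'.completeSpace_coe
  let z : WithLp 2 (E × K) := WithLp.toLp 2 (η, 0)
  have h1 : Γ'.starProjection z ∈ Γ' := Γ'.starProjection_apply_mem z
  have h2 := Γ'.sub_starProjection_mem_orthogonal z
  refine ⟨(e (Γ'.starProjection z)).1, (e (Γ'.starProjection z)).2, h1, fun p hp => ?_⟩
  have h3 : (WithLp.toLp 2 p : WithLp 2 (E × K)) ∈ Γ' := hp
  have h4 := Submodule.inner_right_of_mem_orthogonal h3 h2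
  rw [WithLp.prod_inner_apply] at h4
  have h5 : inner ℂ p.1 (η - (e (Γ'.starProjection z)).1) +
      inner ℂ p.2 (0 - (e (Γ'.starProjection z)).2) = 0 := h4
  rw [zero_sub, inner_neg_right, add_neg_eq_zero] at h5
  exact h5.symm

theorem sa_of (Γ : Submodule ℂ (E × K)) (hc : IsClosed (Γ : Set (E × K)))
    (hd : ∀ y : E, (∀ p ∈ Γ, inner ℂ p.1 y = 0) → y = 0) (H : E →ₗ.[ℂ] E)
    (hH : ∀ x y, (x, y) ∈ H.graph ↔ GH Γ x y) :
    IsSelfAdjoint H ∧ ∀ x : H.domain, 0 ≤ (inner ℂ (x : E) (H x)).re := by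
  have hg : ∀ x : H.domain, GH Γ x (H x) := fun x => (hH _ _).1 (H.mem_graph x)
  have hs : ∀ η : E, ∃ x : H.domain, (x : E) + H x = η := by
    intro η
    obtain ⟨x, hx⟩ := gh_surj Γ hc η
    obtain ⟨x', h1, h2⟩ := (H.mem_graph_iff).1 ((hH _ _).2 hx)
    refine ⟨x', ?_⟩
    rw [h1, h2]
    simp
  have hpos : ∀ x : H.domain, ∃ w, (x.1, w) ∈ Γ ∧ (∀ p ∈ Γ, inner ℂ p.2 w = inner ℂ p.1 (H x)) ∧
      inner ℂ (x : E) (H x) = ((‖w‖ ^ 2 : ℝ) : ℂ) := by
    intro x
    obtain ⟨w, hw, h⟩ := hg x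
    refine ⟨w, hw, h, ?_⟩
    rw [← h _ hw, inner_self_eq_norm_sq_to_K]
    push_cast
    rfl
  have hsym : H.IsFormalAdjoint H := by
    intro x y
    obtain ⟨w, hw, h⟩ := hg x
    obtain ⟨w', hw', h'⟩ := hg y
    rw [← h' _ hw, ← inner_conj_symm, ← h _ hw', inner_conj_symm]
  have hden : Dense (H.domain : Set E) := by
    rw [Submodule.dense_iff_topologicalClosure_eq_top, Submodule.topologicalClosure_eq_top_iff,
      Submodule.eq_bot_iff]
    intro ζ hζ
    obtain ⟨x, hx⟩ := hs ζ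
    obtain ⟨w, -, h, h1⟩ := hpos x
    have h2 := Submodule.inner_right_of_mem_orthogonal x.2 hζ
    rw [← hx, inner_add_right, h1, inner_self_eq_norm_sq_to_K] at h2
    have h3 : ‖(x : E)‖ ^ 2 + ‖w‖ ^ 2 = 0 := by
      have h4 : ((‖(x : E)‖ ^ 2 + ‖w‖ ^ 2 : ℝ) : ℂ) = 0 := by
        rw [← h2]
        push_cast
        rfl
      exact_mod_cast h4
    have h5 : (x : E) = 0 := by
      rw [← norm_eq_zero]
      nlinarith [sq_nonneg ‖(x : E)‖, sq_nonneg ‖w‖]
    have h6 := hg x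
    rw [h5] at h6
    rw [← hx, h5, gh_zero Γ hd h6, add_zero]
  refine ⟨?_, fun x => ?_⟩
  · rw [LinearPMap.isSelfAdjoint_def]
    refine le_antisymm (LinearPMap.le_of_le_graph fun q hq => ?_) (hsym.le_adjoint hden)
    obtain ⟨y, h1, h2⟩ := (LinearPMap.mem_graph_iff _).1 hq
    obtain ⟨x, hx⟩ := hs (q.1 + q.2)
    have h3 : ∀ z : H.domain, inner ℂ (q.1 - x) ((z : E) + H z) = 0 := by
      intro z
      have h4 := LinearPMap.adjoint_isFormalAdjoint hden y z
      rw [h1, h2] at h4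
      have h5 := hsym x z
      rw [inner_sub_left, inner_add_right, inner_add_right, ← h4, ← h5, ← inner_add_left,
        ← inner_add_left, hx, sub_self]
    obtain ⟨z, hz⟩ := hs (q.1 - x)
    have h6 := h3 z
    rw [hz, inner_self_eq_zero, sub_eq_zero] at h6
    have h7 : H x = q.2 := by
      rw [← h6] at hx
      exact add_left_cancel hx
    exact (LinearPMap.mem_graph_iff _).2 ⟨x, h6.symm, h7⟩
  · obtain ⟨w, -, -, h1⟩ := hpos x
    rw [h1, Complex.ofReal_re]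
    positivity

end Vale.Agent.P353B91
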