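import Vale.Agent.P353.H121.Act

/-! # P353B91: the physical Hilbert space, the closure of the form, the Hamiltonian -/

open MeasureTheory Filter Topology

namespace Vale.Agent.P353B91

open Vale.Agent.P353.BFSS

variable {N d : ℕ} {F : Type*} [NormedAddCommGroup F] [InnerProductSpace ℂ F] (M : Model N d F)

/-- The physical Hilbert space: the `SU(N)`-invariant vectors of `L²(ℝ^{9d}; F)`. -/
def Phys : Submodule ℂ (Lp F 2 (leb d)) where
  carrier := {Ψ | ∀ U, ∀ᵐ x ∂leb d, Ψ (M.act U x) = M.S U (Ψ x)}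
  zero_mem' U := by
    have h := Lp.coeFn_zero F 2 (leb d)
    filter_upwards [h, (P353.H121.act_mp M U).quasiMeasurePreserving.ae h] with x h1 h2
    rw [h1, h2, Pi.zero_apply, Pi.zero_apply, map_zero]
  add_mem' {a b} ha hb U := by
    have h := Lp.coeFn_add a b
    filter_upwards [h, (P353.H121.act_mp M U).quasiMeasurePreserving.ae h, ha U, hb U]
      with x h1 h2 h3 h4
    rw [h1, h2, Pi.add_apply, Pi.add_apply, map_add, h3, h4]
  smul_mem' c a ha U := by
    have h := Lp.coeFn_smul c a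
    filter_upwards [h, (P353.H121.act_mp M U).quasiMeasurePreserving.ae h, ha U] with x h1 h2 h3
    rw [h1, h2, Pi.smul_apply, Pi.smul_apply, map_smul, h3]

theorem isClosed_phys : IsClosed (Phys M : Set (Lp F 2 (leb d))) := by
  refine IsSeqClosed.isClosed fun u Ψ hu h U => ?_
  obtain ⟨s, -, hs⟩ := (tendstoInMeasure_of_tendsto_Lp h).exists_seq_tendsto_ae
  filter_upwards [hs, (P353.H121.act_mp M U).quasiMeasurePreserving.ae hs,
    ae_all_iff.2 fun n => hu (s n) U] with x h1 h2 h3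
  refine tendsto_nhds_unique h2 ?_
  simp only [h3]
  exact ((M.S U).continuous.tendsto _).comp h1

/-- The physical Hilbert space is complete. -/
instance completeSpace_phys : CompleteSpace (Phys M) :=
  have := P353.H121.fdim M
  have : CompleteSpace F := FiniteDimensional.complete ℂ F
  (isClosed_phys M).completeSpace_coe

/-- The core functions `u n` converge to `Ψ` in `L²` and form a Cauchy sequence for `q_N`. -/
def Approx (u : ℕ → Conf d → F) (Ψ : Phys M) : Prop :=
  (∀ n, M.IsCore (u n)) ∧ Tendsto (fun n => ∫ x, ‖u n x - Ψ.1 x‖ ^ 2 ∂leb d) atTop (𝓝 0) ∧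
    Tendsto (fun p : ℕ × ℕ => M.form (u p.1 - u p.2) (u p.1 - u p.2)) atTop (𝓝 0)

/-- The form `q` with domain `D` is the closure of the form `q_N`. -/
structure IsClosure (D : Set (Phys M)) (q : Phys M → Phys M → ℂ) : Prop where
  dom : ∀ Ψ, Ψ ∈ D ↔ ∃ u, Approx M u Ψ
  val : ∀ u v Φ Ψ, Approx M u Φ → Approx M v Ψ →
    Tendsto (fun n => M.form (u n) (v n)) atTop (𝓝 (q Φ Ψ))

/-- `H` is the operator associated with the closure of the form `q_N`: `H Ψ = η` if and only if
`Ψ` is in the domain of the closed form `q` and `q(Φ, Ψ) = ⟨Φ, η⟩` for all `Φ` in this domain. -/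
def IsHamiltonian (H : Phys M →ₗ.[ℂ] Phys M) : Prop := ∃ D q, IsClosure M D q ∧
  ∀ Ψ η, (Ψ, η) ∈ H.graph ↔ Ψ ∈ D ∧ ∀ Φ ∈ D, q Φ Ψ = inner ℂ Φ.1 η.1

end Vale.Agent.P353B91
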