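import Vale.Agent.P353B91.Defs
import Vale.Agent.P353.H121.Zes
import Vale.Agent.P353.BdA.B15
import Vale.Agent.P353.BdA.B22
import Vale.Agent.P353.BdA.B23
import Vale.Agent.P353.BdA.B45
import Vale.Agent.P353.BdZ.B4

/-! # P353B91: the core is dense in the physical Hilbert space -/

open MeasureTheory Filter Topology
open scoped ContDiff

namespace Vale.Agent.P353B91

open Vale.Agent.P353 Vale.Agent.P353.BFSS Vale.Agent.P353.AN.G Vale.Agent.P353.Z Vale.Agent.P353.Z.U

variable {N d : ℕ} {F : Type*} [NormedAddCommGroup F] [InnerProductSpace ℂ F] (M : BFSS.Model N d F)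

theorem avg_core {v : Conf d → F} (hv : ContDiff ℝ ∞ v) (hc : HasCompactSupport v) :
    M.IsCore (avg M v) := by
  have hF := H121.fdim M
  obtain ⟨S, hS⟩ := setS M
  exact avgC M (act_stmt M) v ⟨hv, hc⟩
    (avgD M (smInt (SU N) (Cfg d)) (act_stmt M) (qAct M) S hS v ⟨hv, hc⟩).1

theorem test_zero (w : Lp F 2 (leb d))
    (h : ∀ v : Conf d → F, ContDiff ℝ ∞ v → HasCompactSupport v →
      ∫ x, inner ℂ (w x) (v x) ∂leb d = 0) : w = 0 := by
  have hd := Lp.dense_hasCompactSupport_contDiff (F := F) (μ := leb d) (p := 2) (by norm_num)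
  have h1 : ∀ f : Lp F 2 (leb d), inner ℂ w f = 0 := by
    have hcl : IsClosed {f : Lp F 2 (leb d) | (inner ℂ w f : ℂ) = 0} :=
      isClosed_eq (continuous_const.inner continuous_id) continuous_const
    refine fun f => hcl.closure_subset_iff.2 ?_ (hd f)
    rintro f ⟨g, h1, h2, h3⟩
    change (inner ℂ w f : ℂ) = 0
    rw [L2.inner_def, ← h g h3 h2]
    refine integral_congr_ae ?_
    filter_upwards [h1] with x hx
    rw [hx]
  exact inner_self_eq_zero.1 (h1 w)

theorem avg_pair (η : Phys M) {v : Conf d → F} (hv : Continuous v) (hc : HasCompactSupport v) :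
    ∫ x, inner ℂ (η.1 x) (avg M v x) ∂leb d = ∫ x, inner ℂ (η.1 x) (v x) ∂leb d := by
  have hF := H121.fdim M
  have hA := act_stmt M
  obtain ⟨C, hC⟩ := hv.bounded_above_of_compact_support hc
  obtain ⟨R, hR⟩ := hc.isCompact.isBounded.subset_closedBall 0
  have hl : IntegrableOn (fun x => ‖η.1 x‖ * C) (Metric.closedBall (0 : Conf d) R) (leb d) :=
    (((Lp.memLp η.1).locallyIntegrable (by norm_num)).integrableOn_isCompact
      (isCompact_closedBall 0 R)).norm.mul_const C
  have hi : Integrable (fun p : SU N × Conf d =>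
      (inner ℂ (η.1 p.2) (M.S p.1 (v (M.act p.1⁻¹ p.2))) : ℂ)) ((hm N).prod (leb d)) := by
    refine Integrable.mono'
      ((hl.integrable_indicator measurableSet_closedBall).comp_snd (hm N))
      (((Lp.aestronglyMeasurable η.1).comp_snd).inner
        (AvgG.tr_cont M hA hv).aestronglyMeasurable) (Eventually.of_forall fun p => ?_)
    by_cases hp : p.2 ∈ Metric.closedBall (0 : Conf d) R
    · rw [Set.indicator_of_mem hp]
      refine (norm_inner_le_norm _ _).trans ?_
      rw [M.S_isometry]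
      exact mul_le_mul_of_nonneg_left (hC _) (norm_nonneg _)
    · have h1 : v (M.act p.1⁻¹ p.2) = 0 := by
        refine image_eq_zero_of_notMem_tsupport fun h => hp ?_
        have h2 := hR h
        rw [mem_closedBall_zero_iff] at h2 ⊢
        rwa [H121.act_norm] at h2
      rw [Set.indicator_of_notMem hp, h1, map_zero, inner_zero_right, norm_zero]
  have e1 : ∀ x, (inner ℂ (η.1 x) (avg M v x) : ℂ) =
      ∫ U, (inner ℂ (η.1 x) (M.S U (v (M.act U⁻¹ x))) : ℂ) ∂(hm N) :=
    fun x => AvgG.self_eq M hA hv x _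
  have e2 : ∀ U : SU N, ∫ x, (inner ℂ (η.1 x) (M.S U (v (M.act U⁻¹ x))) : ℂ) ∂leb d =
      ∫ x, inner ℂ (η.1 x) (v x) ∂leb d := by
    intro U
    rw [← (H121.act_mp M U).integral_comp (H121.act_emb M U)]
    refine integral_congr_ae ?_
    filter_upwards [η.2 U] with x hx
    rw [hx, ← hA.1, inv_mul_cancel, hA.2.1, AvgG.inner_S]
  simp only [e1]
  rw [← integral_integral_swap (f := fun (U : SU N) (x : Conf d) =>
    (inner ℂ (η.1 x) (M.S U (v (M.act U⁻¹ x))) : ℂ)) hi]
  simp only [e2]
  simp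

/-- a physical vector orthogonal to the core vanishes -/
theorem core_dense (η : Phys M)
    (h : ∀ u, M.IsCore u → ∫ x, inner ℂ (η.1 x) (u x) ∂leb d = 0) : η = 0 := by
  refine Subtype.ext (test_zero η.1 fun v hv hc => ?_)
  rw [← avg_pair M η hv.continuous hc]
  exact h _ (avg_core M hv hc)

end Vale.Agent.P353B91
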