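import Vale.Agent.P353B91.Defs
import Vale.Agent.P353B91.Abs
import Vale.Agent.P353.H121.Zes

/-! # P353B91: the graph of the supercharges on the core and its closure -/

open MeasureTheory Filter Topology
open scoped ContDiff

namespace Vale.Agent.P353B91

open Vale.Agent.P353 Vale.Agent.P353.BFSS Vale.Agent.P353.H121

variable {N d : ℕ} {F : Type*} [NormedAddCommGroup F] [InnerProductSpace ℂ F] (M : Model N d F)

theorem Q_lin (α : Fin 16) (c : ℂ) {u v : Conf d → F} (hu : ContDiff ℝ ∞ u) (hv : ContDiff ℝ ∞ v)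
    (x : Conf d) : M.Q α (fun y => u y + c • v y) x = M.Q α u x + c • M.Q α v x := by
  have h1 : DifferentiableAt ℝ (fun y => c • v y) x := (smooth_diff hv x).fun_const_smul c
  have hd : DifferentiableAt ℝ (fun y => u y + c • v y) x := (smooth_diff hu x).fun_add h1
  simp only [Q_eq]
  rw [Dop_fd _ _ _ (smooth_diff hu x), Dop_fd _ _ _ (smooth_diff hv x), Dop_fd _ _ _ hd,
    fderiv_fun_add (smooth_diff hu x) h1, fderiv_fun_const_smul (smooth_diff hv x)]
  simp only [_root_.add_apply, _root_.smul_apply, map_add, map_smul, Finset.sum_add_distrib,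
    smul_add, Finset.smul_sum, smul_comm c]
  abel

theorem core_lin (c : ℂ) {u v : Conf d → F} (hu : M.IsCore u) (hv : M.IsCore v) :
    M.IsCore fun x => u x + c • v x := by
  refine ⟨hu.1.add (hv.1.const_smul c), hu.2.1.add (hv.2.1.smul_left (f := fun _ => c)),
    fun U x => ?_⟩
  simp only [hu.2.2, hv.2.2, map_add, map_smul]

theorem core_zero : M.IsCore fun _ => 0 :=
  ⟨contDiff_const, HasCompactSupport.zero, fun _ _ => (map_zero _).symm⟩

/-- sixteen copies of `L²` -/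
abbrev L16 (d : ℕ) (F : Type*) [NormedAddCommGroup F] [InnerProductSpace ℂ F] : Type _ :=
  PiLp 2 fun _ : Fin 16 => Lp F 2 (leb d)

/-- the vector `(Q_α u / 4)_α` -/
noncomputable def TQ {u : Conf d → F} (hu : M.IsCore u) : L16 d F :=
  WithLp.toLp 2 fun α => (1 / 4 : ℂ) • tq M α hu

/-- a core function as a physical vector -/
noncomputable def cv {u : Conf d → F} (hu : M.IsCore u) : Phys M :=
  ⟨(cs_mem hu.1 hu.2.1).toLp u, fun U => by
    have h := (cs_mem hu.1 hu.2.1).coeFn_toLp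
    filter_upwards [h, (act_mp M U).quasiMeasurePreserving.ae h] with x h1 h2
    rw [h1, h2, hu.2.2]⟩

theorem form_TQ {φ u : Conf d → F} (hφ : M.IsCore φ) (hu : M.IsCore u) :
    M.form φ u = inner ℂ (TQ M hφ) (TQ M hu) := by
  rw [form_eq M hφ hu, PiLp.inner_apply, Finset.mul_sum]
  refine Finset.sum_congr rfl fun α _ => ?_
  simp only [TQ, inner_smul_left, inner_smul_right, map_div₀, map_one, map_ofNat]
  ring

theorem cv_lin (c : ℂ) {u v : Conf d → F} (hu : M.IsCore u) (hv : M.IsCore v) :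
    cv M (core_lin M c hu hv) = cv M hu + c • cv M hv :=
  Subtype.ext rfl

theorem TQ_lin (c : ℂ) {u v : Conf d → F} (hu : M.IsCore u) (hv : M.IsCore v) :
    TQ M (core_lin M c hu hv) = TQ M hu + c • TQ M hv := by
  ext1 α
  have h : tq M α (core_lin M c hu hv) = tq M α hu + c • tq M α hv := by
    unfold tq
    rw [← MemLp.toLp_const_smul, ← MemLp.toLp_add]
    congr 1
    ext x
    exact Q_lin M α c hu.1 hv.1 x
  simp only [TQ, PiLp.add_apply, PiLp.smul_apply, h, smul_add, smul_comm c]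

theorem TQ_sub {u v : Conf d → F} (hu : M.IsCore u) (hv : M.IsCore v) :
    TQ M (core_sub M hu hv) = TQ M hu - TQ M hv := by
  ext1 α
  simp only [TQ, PiLp.sub_apply, tq_sub M α hu hv, smul_sub]

theorem pair_zero : (cv M (core_zero M), TQ M (core_zero M)) = 0 := by
  have h1 := cv_lin M 1 (core_zero M) (core_zero M)
  have h2 := TQ_lin M 1 (core_zero M) (core_zero M)
  simp only [one_smul, add_zero, left_eq_add] at h1 h2
  rw [h1, h2]
  rfl

/-- the graph of the supercharges on the core -/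
def G0 : Submodule ℂ (Phys M × L16 d F) where
  carrier := {p | ∃ u, ∃ hu : M.IsCore u, p = (cv M hu, TQ M hu)}
  zero_mem' := ⟨_, core_zero M, (pair_zero M).symm⟩
  add_mem' := by
    rintro _ _ ⟨u, hu, rfl⟩ ⟨v, hv, rfl⟩
    refine ⟨_, core_lin M 1 hu hv, ?_⟩
    rw [cv_lin M 1 hu hv, TQ_lin M 1 hu hv, one_smul, one_smul]
    rfl
  smul_mem' := by
    rintro c _ ⟨v, hv, rfl⟩
    refine ⟨_, core_lin M c (core_zero M) hv, ?_⟩
    have h1 : cv M (core_zero M) = 0 := congrArg Prod.fst (pair_zero M)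
    have h2 : TQ M (core_zero M) = 0 := congrArg Prod.snd (pair_zero M)
    rw [cv_lin M c (core_zero M) hv, TQ_lin M c (core_zero M) hv, h1, h2, zero_add, zero_add]
    rfl

theorem cv_dist {u : Conf d → F} (hu : M.IsCore u) (Ψ : Phys M) :
    ∫ x, ‖u x - Ψ.1 x‖ ^ 2 ∂leb d = ‖cv M hu - Ψ‖ ^ 2 := by
  rw [← norm_sub_sq (cs_mem hu.1 hu.2.1) (Lp.memLp Ψ.1), Lp.toLp_coeFn]
  rfl

theorem cv_tendsto {u : ℕ → Conf d → F} (hu : ∀ n, M.IsCore (u n)) (Ψ : Phys M) :
    Tendsto (fun n => ∫ x, ‖u n x - Ψ.1 x‖ ^ 2 ∂leb d) atTop (𝓝 0) ↔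
      Tendsto (fun n => cv M (hu n)) atTop (𝓝 Ψ) := by
  simp only [fun n => cv_dist M (hu n) Ψ]
  rw [tendsto_iff_norm_sub_tendsto_zero (f := fun n => cv M (hu n))]
  refine ⟨fun h => ?_, fun h => by simpa using h.pow 2⟩
  simpa using h.sqrt

theorem cauchy_iff {u : ℕ → Conf d → F} (hu : ∀ n, M.IsCore (u n)) :
    Tendsto (fun p : ℕ × ℕ => M.form (u p.1 - u p.2) (u p.1 - u p.2)) atTop (𝓝 0) ↔
      CauchySeq fun n => TQ M (hu n) := by
  have h : ∀ p : ℕ × ℕ, M.form (u p.1 - u p.2) (u p.1 - u p.2) =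
      ((dist (TQ M (hu p.1)) (TQ M (hu p.2)) ^ 2 : ℝ) : ℂ) := by
    intro p
    refine (form_TQ M (core_sub M (hu p.1) (hu p.2)) (core_sub M (hu p.1) (hu p.2))).trans ?_
    rw [TQ_sub M (hu p.1) (hu p.2), inner_self_eq_norm_sq_to_K, dist_eq_norm]
    push_cast
    rfl
  simp only [h]
  rw [cauchySeq_iff_tendsto_dist_atTop_0]
  refine ⟨fun h => ?_, fun h => ?_⟩
  · have h2 := ((Complex.continuous_re.tendsto 0).comp h).sqrt
    simpa [Function.comp_def, ← Complex.ofReal_pow] using h2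
  · have h2 := (Complex.continuous_ofReal.tendsto _).comp (h.pow 2)
    simpa [Function.comp_def] using h2

/-- the closure of the graph -/
noncomputable def G1 : Submodule ℂ (Phys M × L16 d F) := (G0 M).topologicalClosure

theorem mem_G1 (p : Phys M × L16 d F) : p ∈ G1 M ↔ ∃ u : ℕ → Conf d → F,
    ∃ hu : ∀ n, M.IsCore (u n), Tendsto (fun n => cv M (hu n)) atTop (𝓝 p.1) ∧
      Tendsto (fun n => TQ M (hu n)) atTop (𝓝 p.2) := by
  refine mem_closure_iff_seq_limit.trans ⟨?_, ?_⟩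
  · rintro ⟨s, hs, h⟩
    choose u hu e using hs
    rw [funext e] at h
    exact ⟨u, hu, (continuous_fst.tendsto p).comp h, (continuous_snd.tendsto p).comp h⟩
  · rintro ⟨u, hu, h1, h2⟩
    exact ⟨fun n => (cv M (hu n), TQ M (hu n)), fun n => ⟨_, hu n, rfl⟩, h1.prodMk_nhds h2⟩

theorem of_approx {u : ℕ → Conf d → F} {Ψ : Phys M} (h : Approx M u Ψ) :
    ∃ w, (Ψ, w) ∈ G1 M ∧ Tendsto (fun n => TQ M (h.1 n)) atTop (𝓝 w) := by
  have hF := fdim M
  have hFc : CompleteSpace F := FiniteDimensional.complete ℂ F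
  obtain ⟨w, hw⟩ := cauchySeq_tendsto_of_complete ((cauchy_iff M h.1).1 h.2.2)
  exact ⟨w, (mem_G1 M _).2 ⟨u, h.1, (cv_tendsto M h.1 Ψ).1 h.2.1, hw⟩, hw⟩

theorem to_approx {p : Phys M × L16 d F} (h : p ∈ G1 M) : ∃ u, ∃ hu : Approx M u p.1,
    Tendsto (fun n => TQ M (hu.1 n)) atTop (𝓝 p.2) := by
  obtain ⟨u, hu, h1, h2⟩ := (mem_G1 M p).1 h
  exact ⟨u, ⟨hu, (cv_tendsto M hu _).2 h1, (cauchy_iff M hu).2 h2.cauchySeq⟩, h2⟩

end Vale.Agent.P353B91
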