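import Vale.Agent.P353B91.Main
import Vale.Agent.P353.BdA.B47

/-! # P353B91: the kernel of the Hamiltonian is one-dimensional -/

open MeasureTheory Filter Topology

namespace Vale.Agent.P353B91

open Vale.Agent.P353 Vale.Agent.P353.BFSS Vale.Agent.P353.H121

theorem ker_one {E : Type*} [AddCommGroup E] [Module ℂ E] (H : E →ₗ.[ℂ] E) (x : H.domain)
    (hx : H x = 0) (h0 : x.1 ≠ 0) (h : ∀ y : H.domain, H y = 0 → ∃ c : ℂ, c • x.1 = y.1) :
    Module.finrank ℂ (LinearMap.ker H.toFun) = 1 := by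
  refine finrank_eq_one (⟨x, hx⟩ : LinearMap.ker H.toFun)
    (fun h1 => h0 (congrArg (fun z : LinearMap.ker H.toFun => z.1.1) h1)) fun y => ?_
  obtain ⟨c, hc⟩ := h y.1 y.2
  exact ⟨c, Subtype.ext (Subtype.ext hc)⟩

variable {N d : ℕ} {F : Type*} [NormedAddCommGroup F] [InnerProductSpace ℂ F] (M : BFSS.Model N d F)

theorem ham_ker (hN : 2 ≤ N) {H : Phys M →ₗ.[ℂ] Phys M} (h : IsHamiltonian M H) :
    Module.finrank ℂ (LinearMap.ker H.toFun) = 1 := by
  have hH := (ham_iff M H).1 h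
  obtain ⟨Φ, h1, h2, h3⟩ := (Z.AFinal.oneX hN).2 d F M
  have hc := h1.1.coeFn_toLp
  let Φ' : Phys M := ⟨h1.1.toLp Φ, fun U => by
    filter_upwards [hc, (act_mp M U).quasiMeasurePreserving.ae hc, invariant_of_zes M h1 U]
      with x e1 e2 e3
    rw [e1, e2, e3]⟩
  obtain ⟨x, e1, e2⟩ := (H.mem_graph_iff).1
    ((hH Φ' 0).2 ((ker_iff M Φ').2 (zes_congr M h1 hc)))
  have h6 : (x.1.1 : Lp F 2 (leb d)) = h1.1.toLp Φ := congrArg Subtype.val e1
  refine ker_one H x e2 (fun h0 => h2 ?_) fun y h4 => ?_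
  · have h5 : h1.1.toLp Φ = 0 := h6.symm.trans (congrArg Subtype.val h0)
    filter_upwards [hc, Lp.coeFn_zero F 2 (leb d)] with z a1 a2
    rw [← a1, h5, a2, Pi.zero_apply]
  · have h5 := H.mem_graph y
    rw [h4] at h5
    obtain ⟨c, hc'⟩ := h3 _ ((ker_iff M _).1 ((hH _ _).1 h5))
    refine ⟨c, Subtype.ext (Lp.ext ?_)⟩
    filter_upwards [hc, hc', Lp.coeFn_smul c (x.1.1 : Lp F 2 (leb d))] with z a1 a2 a3
    refine a3.trans ?_
    rw [a2, h6, Pi.smul_apply, a1]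

end Vale.Agent.P353B91
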