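import Vale.Agent.P353B91.Den
import Vale.Agent.P353B91.Gr
import Vale.Agent.P353.H121.Conv

/-! # P353B91: existence, self-adjointness and the kernel of the Hamiltonian -/

open MeasureTheory Filter Topology
open scoped ContDiff

namespace Vale.Agent.P353B91

open Vale.Agent.P353 Vale.Agent.P353.BFSS Vale.Agent.P353.H121

variable {N d : ℕ} {F : Type*} [NormedAddCommGroup F] [InnerProductSpace ℂ F] (M : BFSS.Model N d F)

theorem G1_dense (y : Phys M) (h : ∀ p ∈ G1 M, inner ℂ p.1 y = 0) : y = 0 := by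
  refine core_dense M y fun u hu => ?_
  have h1 := h (cv M hu, TQ M hu) ((G0 M).le_topologicalClosure ⟨u, hu, rfl⟩)
  rw [← inner_toLp (Lp.memLp y.1) (cs_mem hu.1 hu.2.1), Lp.toLp_coeFn, inner_eq_zero_symm]
  exact h1

/-- the form is closable -/
theorem G1_fun {w : L16 d F} (h : ((0 : Phys M), w) ∈ G1 M) : w = 0 := by
  obtain ⟨u, hu, h1, h2⟩ := (mem_G1 M _).1 h
  ext1 α
  refine test_zero (w α) fun v hv hc => ?_
  have h3 : Tendsto (fun n => (1 / 4 : ℂ) • tq M α (hu n)) atTop (𝓝 (w α)) :=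
    ((PiLp.continuous_apply 2 _ α).tendsto w).comp h2
  have h4 : Tendsto (fun n => (cv M (hu n)).1) atTop (𝓝 0) :=
    (continuous_subtype_val.tendsto (0 : Phys M)).comp h1
  have h5 := (tendsto_const_nhds (x := (cs_mem hv hc).toLp v)).inner (𝕜 := ℂ) h3
  have h6 := ((tendsto_const_nhds (x := (Q_mem M α hv hc).toLp (M.Q α v))).inner (𝕜 := ℂ)
    h4).const_mul (1 / 4 : ℂ)
  have h7 : (fun n => (inner ℂ ((cs_mem hv hc).toLp v) ((1 / 4 : ℂ) • tq M α (hu n)) : ℂ)) =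
      fun n => (1 / 4 : ℂ) * inner ℂ ((Q_mem M α hv hc).toLp (M.Q α v)) (cv M (hu n)).1 := by
    ext n
    rw [inner_smul_right, tq, inner_toLp, ← Q_symm M α hv hc (hu n).1]
    exact congrArg _ (inner_toLp _ (cs_mem (hu n).1 (hu n).2.1)).symm
  rw [h7] at h5
  have h8 := tendsto_nhds_unique h5 h6
  rw [inner_zero_right, mul_zero, inner_eq_zero_symm] at h8
  rw [← inner_toLp (Lp.memLp (w α)) (cs_mem hv hc), Lp.toLp_coeFn]
  exact h8

theorem G1_uniq {Ψ : Phys M} {w w' : L16 d F} (h : (Ψ, w) ∈ G1 M) (h' : (Ψ, w') ∈ G1 M) :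
    w = w' := by
  have h1 := (G1 M).sub_mem h h'
  rw [Prod.mk_sub_mk, sub_self] at h1
  exact sub_eq_zero.1 (G1_fun M h1)

theorem form_lim {u v : ℕ → Conf d → F} {Φ Ψ : Phys M} (hu : Approx M u Φ) (hv : Approx M v Ψ)
    {w w' : L16 d F} (hw : (Φ, w) ∈ G1 M) (hw' : (Ψ, w') ∈ G1 M) :
    Tendsto (fun n => M.form (u n) (v n)) atTop (𝓝 (inner ℂ w w')) := by
  obtain ⟨z, h1, h2⟩ := of_approx M hu
  obtain ⟨z', h1', h2'⟩ := of_approx M hv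
  rw [G1_uniq M hw h1, G1_uniq M hw' h1']
  simp only [fun n => form_TQ M (hu.1 n) (hv.1 n)]
  exact h2.inner h2'

theorem ex_closure : ∃ D q, IsClosure M D q := by
  classical
  let T : Phys M → L16 d F := fun Ψ => if h : ∃ w, (Ψ, w) ∈ G1 M then h.choose else 0
  have hT : ∀ u Ψ, Approx M u Ψ → (Ψ, T Ψ) ∈ G1 M := by
    intro u Ψ h
    obtain ⟨w, hw, -⟩ := of_approx M h
    have h1 : ∃ w, (Ψ, w) ∈ G1 M := ⟨w, hw⟩
    simp only [T, dif_pos h1]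
    exact h1.choose_spec
  exact ⟨{Ψ | ∃ u, Approx M u Ψ}, fun Φ Ψ => inner ℂ (T Φ) (T Ψ), fun _ => Iff.rfl,
    fun u v Φ Ψ hu hv => form_lim M hu hv (hT _ _ hu) (hT _ _ hv)⟩

theorem assoc_iff {D : Set (Phys M)} {q : Phys M → Phys M → ℂ} (h : IsClosure M D q)
    (Ψ η : Phys M) : (Ψ ∈ D ∧ ∀ Φ ∈ D, q Φ Ψ = inner ℂ Φ.1 η.1) ↔ GH (G1 M) Ψ η := by
  have hq : ∀ Φ Ψ w w', (Φ, w) ∈ G1 M → (Ψ, w') ∈ G1 M → q Φ Ψ = inner ℂ w w' := by
    intro Φ Ψ w w' hw hw'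
    obtain ⟨u, hu, -⟩ := to_approx M hw
    obtain ⟨v, hv, -⟩ := to_approx M hw'
    exact tendsto_nhds_unique (h.val u v _ _ hu hv) (form_lim M hu hv hw hw')
  have hD : ∀ Φ, Φ ∈ D ↔ ∃ w, (Φ, w) ∈ G1 M := by
    refine fun Φ => (h.dom Φ).trans ⟨fun ⟨u, hu⟩ => ?_, fun ⟨w, hw⟩ => ?_⟩
    · obtain ⟨w, hw, -⟩ := of_approx M hu
      exact ⟨w, hw⟩
    · obtain ⟨u, hu, -⟩ := to_approx M hw
      exact ⟨u, hu⟩
  constructor
  · rintro ⟨h1, h2⟩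
    obtain ⟨w, hw⟩ := (hD Ψ).1 h1
    refine ⟨w, hw, fun p hp => ?_⟩
    exact (hq p.1 Ψ p.2 w hp hw).symm.trans (h2 p.1 ((hD _).2 ⟨p.2, hp⟩))
  · rintro ⟨w, hw, h2⟩
    refine ⟨(hD Ψ).2 ⟨w, hw⟩, fun Φ hΦ => ?_⟩
    obtain ⟨w', hw'⟩ := (hD Φ).1 hΦ
    rw [hq Φ Ψ w' w hw' hw]
    exact h2 _ hw'

theorem ham_iff (H : Phys M →ₗ.[ℂ] Phys M) :
    IsHamiltonian M H ↔ ∀ x y, (x, y) ∈ H.graph ↔ GH (G1 M) x y := by
  constructor
  · rintro ⟨D, q, h, h1⟩ x y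
    exact (h1 x y).trans (assoc_iff M h x y)
  · intro h1
    obtain ⟨D, q, h⟩ := ex_closure M
    exact ⟨D, q, h, fun x y => (h1 x y).trans (assoc_iff M h x y).symm⟩

theorem ex_ham : ∃! H, IsHamiltonian M H := by
  obtain ⟨H, hH⟩ := ex_op (G1 M) (G1_dense M)
  refine ⟨H, (ham_iff M H).2 hH, fun H' h' => LinearPMap.eq_of_eq_graph (Submodule.ext fun p => ?_)⟩
  exact ((ham_iff M H').1 h' p.1 p.2).trans (hH p.1 p.2).symm

theorem ham_sa {H : Phys M →ₗ.[ℂ] Phys M} (h : IsHamiltonian M H) :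
    IsSelfAdjoint H ∧ ∀ x : H.domain, 0 ≤ (inner ℂ x.1.1 (H x).1).re := by
  have hF := fdim M
  have hFc : CompleteSpace F := FiniteDimensional.complete ℂ F
  exact sa_of (G1 M) (G0 M).isClosed_topologicalClosure (G1_dense M) H ((ham_iff M H).1 h)

theorem ker_iff (Ψ : Phys M) : GH (G1 M) Ψ 0 ↔ M.IsZeroEnergyState Ψ.1 := by
  constructor
  · rintro ⟨w, hw, h⟩
    obtain ⟨u, hu, h2⟩ := to_approx M hw
    have h3 := h _ hw
    rw [inner_zero_right, inner_self_eq_zero] at h3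
    refine ⟨Lp.memLp _, u, hu.1, hu.2.1, hu.2.2, fun φ hφ => ?_⟩
    simp only [fun n => form_TQ M hφ (hu.1 n)]
    have h4 := (tendsto_const_nhds (x := TQ M hφ)).inner (𝕜 := ℂ) h2
    simpa [show w = 0 from h3] using h4
  · rintro ⟨-, u, hu, h1, h2, h3⟩
    refine ⟨0, (mem_G1 M _).2 ⟨u, hu, (cv_tendsto M hu Ψ).1 h1, ?_⟩, fun p _ => by simp⟩
    have h4 : Tendsto (fun n => fun α => (1 / 4 : ℂ) • tq M α (hu n)) atTop (𝓝 0) :=
      tendsto_pi_nhds.2 fun α => by simpa using (tq_zero M hu h2 h3 α).const_smul (1 / 4 : ℂ)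
    exact ((PiLp.continuous_toLp 2 _).tendsto 0).comp h4

end Vale.Agent.P353B91
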